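import Vale.Agent.P058.Kite

namespace Vale.Agent.Results.P058.Characterization

open Vale.Agent.P058

theorem result :
    (∀ (d : ℕ) (A : Set (EuclideanSpace ℝ (Fin d))), A.Finite → A.Nonempty →
      ∀ (F : Subfield ℝ) (hF : ∀ a ∈ A, ∀ k, a k ∈ F),
        (IsRamsey A ↔ TensorCriterion F A hF)) ∧
    (∀ (d : ℕ) (A : Set (EuclideanSpace ℝ (Fin d))), IsSubtransitive A → IsRamsey A) ∧
    (∀ (d : ℕ) (A : Set (EuclideanSpace ℝ (Fin d))), A.Finite → A.Nonempty → A.ncard ≤ 5 →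
      (∃ (z : EuclideanSpace ℝ (Fin d)) (ρ : ℝ), A ⊆ Metric.sphere z ρ) → IsRamsey A) ∧
    (∃ A : Set (EuclideanSpace ℝ (Fin 2)), A.Finite ∧ A.ncard = 4 ∧ A ⊆ Metric.sphere 0 1 ∧
      IsRamsey A ∧ ¬ IsSubtransitive A) :=
  ⟨fun _ A h1 h2 F hF => ramsey_iff_crit A h1 h2 F hF, fun _ A => ramsey_of_subtransitive A,
    fun _ A h1 h2 h3 ⟨z, ρ, h4⟩ => ramsey_of_five A h1 h2 h3 z ρ h4, exists_kite⟩

end Vale.Agent.Results.P058.Characterization
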