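import Vale.Agent.P058.Sub

namespace Vale.Agent.Results.P058.SubtransRamsey

open Vale.Agent.P058

theorem result (d : ℕ) (A : Set (EuclideanSpace ℝ (Fin d))) (hA : IsSubtransitive A) :
    IsRamsey A :=
  ramsey_of_subtransitive A hA

end Vale.Agent.Results.P058.SubtransRamsey
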